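import Vale.Agent.P101.Fomega
import Vale.Agent.P101.Statement

/-! The action induced on the ultrapower and on the central sequence algebra. -/

open Filter Topology TopologicalSpace
open Vale.Agent.P101

namespace Vale.Agent.P095

noncomputable section

variable {A : Type*} [CStarAlgebra A]

/-- Entrywise application to a bounded sequence. -/
def seqMap [Nontrivial A] (φ : A →⋆ₐ[ℂ] A) (a : BddSeq A) : BddSeq A :=
  BddSeq.mk (fun n => φ (a n)) ‖a‖ fun n =>
    (NonUnitalStarAlgHom.norm_apply_le φ (a n)).trans (BddSeq.norm_apply_le a n)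

variable [Nontrivial A] (ω : Ultrafilter ℕ)

/-- Entrywise application on the ultrapower. -/
def ultraMap (φ : A →⋆ₐ[ℂ] A) : Ultrapower A ω →⋆ₐ[ℂ] Ultrapower A ω where
  toFun x := Quotient.liftOn' x (fun a => qmk ω (seqMap φ a)) fun a b h => by
    rw [Submodule.quotientRel_def] at h
    refine Ideal.Quotient.eq.2 (show Tendsto (fun n => ‖φ (a n) - φ (b n)‖) ω (𝓝 0) from ?_)
    exact squeeze_zero (fun _ => norm_nonneg _) (fun n => by
      rw [← map_sub]; exact NonUnitalStarAlgHom.norm_apply_le φ _) h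
  map_one' := congrArg (qmk ω) (Subtype.ext (funext fun _ => map_one φ))
  map_zero' := congrArg (qmk ω) (Subtype.ext (funext fun _ => map_zero φ))
  map_mul' x y := by
    obtain ⟨a, rfl⟩ := Ideal.Quotient.mk_surjective x
    obtain ⟨b, rfl⟩ := Ideal.Quotient.mk_surjective y
    exact congrArg (qmk ω) (Subtype.ext (funext fun _ => map_mul φ _ _))
  map_add' x y := by
    obtain ⟨a, rfl⟩ := Ideal.Quotient.mk_surjective x
    obtain ⟨b, rfl⟩ := Ideal.Quotient.mk_surjective y
    exact congrArg (qmk ω) (Subtype.ext (funext fun _ => map_add φ _ _))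
  commutes' r := congrArg (qmk ω) (Subtype.ext (funext fun _ => φ.commutes' r))
  map_star' x := by
    obtain ⟨a, rfl⟩ := Ideal.Quotient.mk_surjective x
    exact congrArg (qmk ω) (Subtype.ext (funext fun _ => map_star φ _))

theorem ultraMap_qmk (φ : A →⋆ₐ[ℂ] A) (a : BddSeq A) :
    ultraMap ω φ (qmk ω a) = qmk ω (seqMap φ a) := rfl

/-- The automorphism induced on `F_ω(A)`. -/
def centralMap (φ : A ≃⋆ₐ[ℂ] A) : CentralSeq A ω →⋆ₐ[ℂ] CentralSeq A ω :=
  ((ultraMap ω (φ : A →⋆ₐ[ℂ] A)).comp (StarSubalgebra.subtype _)).codRestrict _ fun x => by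
    rw [StarSubalgebra.mem_centralizer_iff]
    rintro _ ⟨a, rfl⟩
    have hc : ∀ b : A, qmk ω (constSeq b) =
        ultraMap ω (φ : A →⋆ₐ[ℂ] A) (qmk ω (constSeq (φ.symm b))) := fun b =>
      congrArg (qmk ω) (Subtype.ext (funext fun _ => (φ.apply_symm_apply b).symm))
    have h : ∀ b : A, qmk ω (constSeq b) * ultraMap ω (φ : A →⋆ₐ[ℂ] A) x =
        ultraMap ω (φ : A →⋆ₐ[ℂ] A) x * qmk ω (constSeq b) := fun b => by
      rw [hc b, ← map_mul, ← map_mul, (qmk_constSeq_comm x (φ.symm b)).eq]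
    exact ⟨h a, h (star a)⟩

theorem centralMap_coe (φ : A ≃⋆ₐ[ℂ] A) (x : CentralSeq A ω) :
    (centralMap ω φ x : Ultrapower A ω) = ultraMap ω (φ : A →⋆ₐ[ℂ] A) (x : Ultrapower A ω) := rfl

end

end Vale.Agent.P095
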