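import Vale.Agent.P095.States

/-! Product behaviour of an extremal state on asymptotically central copies. -/

open Filter Topology ComplexOrder

namespace Vale.Agent.P095

variable {C : Type*} [CStarAlgebra C] {f : C → ℂ}

/-- Multiplying by the square of an asymptotically central sequence is asymptotically
multiplication by its expectation. -/
theorem tendsto_cluster_sq (hf : f ∈ (states C).extremePoints ℝ) (b : ℕ → C) {R : ℝ}
    (hb : ∀ j, ‖b j‖ ≤ R) (u : Ultrafilter ℕ)
    (hc : ∀ x : C, Tendsto (fun j => ‖b j * x - x * b j‖) u (𝓝 0)) (x : C) :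
    Tendsto (fun j => f (star (b j) * b j * x) - f (star (b j) * b j) * f x) u (𝓝 0) := by
  have hp := hf.1.1
  have hlim : ∀ g : ℕ → ℂ, ∀ M : ℝ, (∀ j, ‖g j‖ ≤ M) → ∃ z, Tendsto g u (𝓝 z) := fun g M hg => by
    obtain ⟨z, -, hz⟩ := (isCompact_closedBall (0 : ℂ) M).ultrafilter_le_nhds (u.map g) (by
      rw [le_principal_iff]
      exact Eventually.of_forall (f := (u : Filter ℕ))
        (p := fun j => g j ∈ Metric.closedBall (0 : ℂ) M) fun j => by simpa using hg j)
    exact ⟨z, hz⟩
  have hR : ∀ j, ‖star (b j)‖ ≤ R := fun j => (norm_star _).trans_le (hb j)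
  have hR0 : 0 ≤ R := (norm_nonneg _).trans (hb 0)
  choose L hL using fun y : C => hlim (fun j => f (star (b j) * y * b j)) (R * ‖y‖ * R) fun j =>
    (norm_state_le hf.1 _).trans ((norm_mul_le _ _).trans (mul_le_mul
      ((norm_mul_le _ _).trans (mul_le_mul_of_nonneg_right (hR j) (norm_nonneg _))) (hb j)
      (norm_nonneg _) (by positivity)))
  have hLpos : IsPos L := by
    refine ⟨fun a c => tendsto_nhds_unique (hL _) ?_, fun z a => tendsto_nhds_unique (hL _) ?_,
      fun y => ?_⟩
    · simpa only [mul_add, add_mul, hp.add] using (hL a).add (hL c)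
    · simpa only [mul_smul_comm, smul_mul_assoc, hp.smul] using (hL a).const_mul z
    · refine ge_of_tendsto (hL _) (Eventually.of_forall fun j => ?_)
      have := hp.nonneg (y * b j)
      simpa only [star_mul, mul_assoc] using this
  have hswap : ∀ y : C,
      Tendsto (fun j => f (star (b j) * b j * y)) u (𝓝 (L y)) := fun y => by
    have h0 : Tendsto (fun j => f (star (b j) * (b j * y - y * b j))) u (𝓝 0) := by
      refine squeeze_zero_norm (fun j => (norm_state_le hf.1 _).trans ((norm_mul_le _ _).trans
        (mul_le_mul_of_nonneg_right (hR j) (norm_nonneg _)))) ?_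
      simpa using (hc y).const_mul R
    have := (hL y).add h0
    simpa only [← hp.add, mul_sub, mul_assoc, add_sub_cancel, add_zero] using this
  have hle : ∀ y, (L (star y * y)).re ≤ R ^ 2 * (f (star y * y)).re := fun y => by
    have h1 : Tendsto (fun j => f (star (y * b j) * (y * b j))) u (𝓝 (L (star y * y))) := by
      simpa only [star_mul, mul_assoc] using hL (star y * y)
    have h2 : Tendsto (fun j => f (star (y * b j) * (y * b j)) -
        f (star (b j * y) * (b j * y))) u (𝓝 0) := by
      refine squeeze_zero_norm (a := fun j => ‖b j * y - y * b j‖ * (2 * (R * ‖y‖))) (fun j => ?_)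
        ?_
      · rw [← hp.map_sub]
        refine (norm_state_le hf.1 _).trans ?_
        set p := y * b j with hpd
        set q := b j * y with hqd
        have hp' : ‖p‖ ≤ R * ‖y‖ := (norm_mul_le _ _).trans (by
          rw [mul_comm R]; exact mul_le_mul_of_nonneg_left (hb j) (norm_nonneg _))
        have hq' : ‖q‖ ≤ R * ‖y‖ := (norm_mul_le _ _).trans
          (mul_le_mul_of_nonneg_right (hb j) (norm_nonneg _))
        have e : star p * p - star q * q = star (p - q) * p + star q * (p - q) := by
          rw [star_sub, sub_mul, mul_sub]; abel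
        rw [e]
        refine (norm_add_le _ _).trans ?_
        refine (add_le_add (norm_mul_le _ _) (norm_mul_le _ _)).trans ?_
        rw [norm_star, norm_star, norm_sub_rev p q]
        nlinarith [mul_le_mul_of_nonneg_left hp' (norm_nonneg (q - p)),
          mul_le_mul_of_nonneg_right hq' (norm_nonneg (q - p))]
      · simpa using (hc y).mul_const (2 * (R * ‖y‖))
    have h3 := h1.sub h2
    simp only [sub_sub_cancel, sub_zero] at h3
    refine le_of_tendsto' ((Complex.continuous_re.tendsto _).comp h3) fun j => ?_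
    have h4 := hp.re_le (b j) y
    have h5 := (Complex.nonneg_iff.1 (hp.nonneg y)).1
    simp only [Function.comp_apply, star_mul, mul_assoc] at h4 ⊢
    exact h4.trans (mul_le_mul_of_nonneg_right (pow_le_pow_left₀ (norm_nonneg _) (hb j) 2) h5)
  have h := eq_smul_of_le hf hLpos hle x
  have h1 := hswap 1
  simp only [mul_one] at h1
  have := (hswap x).sub (h1.mul_const (f x))
  rwa [h, sub_self] at this

variable {D : Type*} [CStarAlgebra D]

/-- The copies of an asymptotically central system. -/
def AsympCentral (θ : ℕ → (D →⋆ₐ[ℂ] C)) : Prop :=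
  ∀ (x : C) (y : D), Tendsto (fun j => ‖θ j y * x - x * θ j y‖) atTop (𝓝 0)

/-- Clustering along asymptotically central copies. -/
theorem tendsto_cluster (hf : f ∈ (states C).extremePoints ℝ) {θ : ℕ → (D →⋆ₐ[ℂ] C)}
    (hθ : AsympCentral θ) {u : Ultrafilter ℕ} (hu : (u : Filter ℕ) ≤ atTop) (y : D) (x : C) :
    Tendsto (fun j => f (θ j y * x) - f (θ j y) * f x) u (𝓝 0) := by
  have hp := hf.1.1
  have hsq : ∀ b : D, Tendsto (fun j => f (θ j (star b * b) * x) - f (θ j (star b * b)) * f x) u
      (𝓝 0) := fun b => by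
    simpa only [map_mul, map_star] using tendsto_cluster_sq hf (fun j => θ j b)
      (fun j => NonUnitalStarAlgHom.norm_apply_le (θ j) b) u (fun z => (hθ z b).mono_left hu) x
  have hsa : ∀ a : D, IsSelfAdjoint a →
      Tendsto (fun j => f (θ j a * x) - f (θ j a) * f x) u (𝓝 0) := fun a ha => by
    have e : a = (4⁻¹ : ℂ) • (star (1 + a) * (1 + a) - star (1 - a) * (1 - a)) := by
      rw [star_add, star_sub, star_one, ha.star_eq,
        show (1 + a) * (1 + a) - (1 - a) * (1 - a) = (4 : ℂ) • a by
          rw [show (4 : ℂ) = ((4 : ℕ) : ℂ) by norm_num, Nat.cast_smul_eq_nsmul]; noncomm_ring,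
        inv_smul_smul₀ (by norm_num)]
    have h := ((hsq (1 + a)).sub (hsq (1 - a))).const_mul (4⁻¹ : ℂ)
    rw [sub_zero, mul_zero] at h
    refine h.congr fun j => ?_
    conv_rhs => rw [e]
    rw [map_smul, map_sub, smul_mul_assoc, sub_mul, hp.smul, hp.map_sub, hp.smul, hp.map_sub]
    ring
  have h := (hsa _ (realPart y).2).add ((hsa _ (imaginaryPart y).2).const_mul Complex.I)
  rw [mul_zero, add_zero] at h
  refine h.congr fun j => ?_
  conv_rhs => rw [← realPart_add_I_smul_imaginaryPart y]
  rw [map_add, map_smul, add_mul, smul_mul_assoc, hp.add, hp.smul, hp.add, hp.smul]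
  ring

end Vale.Agent.P095
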