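import Vale.Agent.P095.Product
import Vale.Agent.P101.Nilp
import Vale.Agent.P101.Copies
import Vale.Agent.P101.Defs

/-! Fixed point algebras of finite groups acting with equivariant re-indexing have no characters
if the algebra has none. -/

open Filter Topology TopologicalSpace ComplexOrder
open Vale.Agent.P101

namespace Vale.Agent.P095

variable {F : Type*} [CStarAlgebra F] {G : Type*} [Group G]

/-- An action by unital *-endomorphisms. -/
def IsAction (σ : G → (F →⋆ₐ[ℂ] F)) : Prop :=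
  (∀ x, σ 1 x = x) ∧ ∀ g h x, σ (g * h) x = σ g (σ h x)

/-- The fixed point algebra. -/
def fixedAlg (σ : G → (F →⋆ₐ[ℂ] F)) : StarSubalgebra ℂ F where
  carrier := {x | ∀ g, σ g x = x}
  mul_mem' := fun hx hy g => by rw [map_mul, hx g, hy g]
  one_mem' := fun g => map_one (σ g)
  add_mem' := fun hx hy g => by rw [map_add, hx g, hy g]
  zero_mem' := fun g => map_zero (σ g)
  algebraMap_mem' := fun r g => (σ g).commutes' r
  star_mem' := fun hx g => by rw [map_star, hx g]

variable {σ : G → (F →⋆ₐ[ℂ] F)}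

lemma mem_fixedAlg {x : F} : x ∈ fixedAlg σ ↔ ∀ g, σ g x = x := Iff.rfl

lemma isClosed_fixedAlg (σ : G → (F →⋆ₐ[ℂ] F)) : IsClosed (fixedAlg σ : Set F) := by
  show IsClosed {x | ∀ g, σ g x = x}
  simp only [Set.ofPred_forall]
  exact isClosed_iInter fun g => isClosed_eq (hom_continuous (σ g)) continuous_id

/-- Equivariant re-indexing: every invariant separable closed unital *-subalgebra has an
equivariant copy commuting with a prescribed countable set. -/
def EqReindex (σ : G → (F →⋆ₐ[ℂ] F)) : Prop :=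
  ∀ D : StarSubalgebra ℂ F, IsClosed (D : Set F) → IsSeparable (D : Set F) →
    (∀ g, ∀ x ∈ D, σ g x ∈ D) → ∀ T : Set F, T.Countable →
      ∃ θ : D →⋆ₐ[ℂ] F, (∀ g (d e : D), (e : F) = σ g d → θ e = σ g (θ d)) ∧
        ∀ d, ∀ t ∈ T, Commute (θ d) t

/-- An invariant separable subalgebra without characters. -/
theorem exists_invariant_noChar [Countable G] (hσ : IsAction σ)
    (h : IsEmpty (F →⋆ₐ[ℂ] ℂ)) :
    ∃ D : StarSubalgebra ℂ F, IsClosed (D : Set F) ∧ IsSeparable (D : Set F) ∧
      (∀ g, ∀ x ∈ D, σ g x ∈ D) ∧ IsEmpty (D →⋆ₐ[ℂ] ℂ) := by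
  obtain ⟨n, a, v, b, hv, hsum⟩ := exists_nilp_gen h
  set s : Set F := Set.range a ∪ Set.range v ∪ Set.range b
  set orb : Set F := ⋃ g, σ g '' s with horb
  have hs : s ⊆ orb := fun x hx => Set.mem_iUnion.2 ⟨1, x, hx, hσ.1 x⟩
  refine ⟨genAlg orb, isClosed_genAlg _, isSeparable_genAlg (Set.countable_iUnion fun g =>
    (((Set.finite_range a).union (Set.finite_range v)).union
      (Set.finite_range b)).countable.image _).isSeparable, fun g x hx => ?_, ⟨fun φ => ?_⟩⟩
  · refine (genAlg_le (U := (genAlg orb).comap (σ g)) ?_ ?_) hx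
    · exact (isClosed_genAlg orb).preimage (hom_continuous (σ g))
    · intro y hy
      obtain ⟨h', z, hz, rfl⟩ := Set.mem_iUnion.1 hy
      exact subset_genAlg orb (Set.mem_iUnion.2 ⟨g * h', z, hz, hσ.2 g h' z⟩)
  · have hm : ∀ x ∈ s, x ∈ genAlg orb := fun x hx => subset_genAlg orb (hs hx)
    let a' : Fin n → genAlg orb := fun i => ⟨a i, hm _ (Or.inl (Or.inl ⟨i, rfl⟩))⟩
    let v' : Fin n → genAlg orb := fun i => ⟨v i, hm _ (Or.inl (Or.inr ⟨i, rfl⟩))⟩
    let b' : Fin n → genAlg orb := fun i => ⟨b i, hm _ (Or.inr ⟨i, rfl⟩)⟩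
    have h1 : ∑ i, a' i * v' i * b' i = 1 := Subtype.ext (by simpa [a', v', b'] using hsum)
    have h2 : ∀ i, φ (v' i) = 0 := fun i => mul_self_eq_zero.1 (by
      rw [← map_mul, show v' i * v' i = 0 from Subtype.ext (hv i), map_zero])
    have := congrArg φ h1
    simp [map_sum, h2] at this

/-- Commuting equivariant copies. -/
theorem exists_copies_seq (hR : EqReindex σ) (D : StarSubalgebra ℂ F) (hD : IsClosed (D : Set F))
    (hsep : IsSeparable (D : Set F)) (hinv : ∀ g, ∀ x ∈ D, σ g x ∈ D) :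
    ∃ θ : ℕ → (D →⋆ₐ[ℂ] F), (∀ j g (d e : D), (e : F) = σ g d → θ j e = σ g (θ j d)) ∧
      ∀ i j, i ≠ j → ∀ x y, Commute (θ i x) (θ j y) := by
  let := subCStar D hD
  choose Φ hΦe hΦc using fun T : {T : Set F // T.Countable} => hR D hD hsep hinv T.1 T.2
  have : SeparableSpace D := hsep.separableSpace
  obtain ⟨c, hc, hcd⟩ := exists_countable_dense D
  let T : ℕ → {T : Set F // T.Countable} := Nat.rec ⟨∅, Set.countable_empty⟩ fun _ T =>
    ⟨T.1 ∪ Φ T '' c, T.2.union (hc.image _)⟩
  have hmem : ∀ i j, i < j → Φ (T i) '' c ⊆ (T j).1 := by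
    intro i j hij
    induction j with
    | zero => omega
    | succ j ih =>
      rcases Nat.lt_succ_iff_lt_or_eq.1 hij with h | h
      · exact (ih h).trans Set.subset_union_left
      · subst h; exact Set.subset_union_right
  have hlt : ∀ i j, i < j → ∀ x y, Commute (Φ (T j) x) (Φ (T i) y) := fun i j hij x y => by
    have hcl : IsClosed {y | Commute (Φ (T j) x) (Φ (T i) y)} :=
      isClosed_eq (continuous_const.mul (hom_continuous (Φ (T i))))
        ((hom_continuous (Φ (T i))).mul continuous_const)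
    exact hcl.closure_subset_iff.2 (fun d hd => hΦc (T j) x _ (hmem i j hij ⟨d, hd, rfl⟩)) (hcd y)
  refine ⟨fun j => Φ (T j), fun j => hΦe (T j), fun i j hij x y => ?_⟩
  rcases lt_or_gt_of_ne hij with h | h
  · exact (hlt i j h y x).symm
  · exact hlt j i h x y

/-- A positive fixed element is the square of a self-adjoint fixed element. -/
theorem exists_fixed_sqrt [PartialOrder F] [StarOrderedRing F] {w : F} (hw : 0 ≤ w)
    (hfix : w ∈ fixedAlg σ) : ∃ s ∈ fixedAlg σ, IsSelfAdjoint s ∧ s * s = w := by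
  refine ⟨CFC.sqrt w, fun g => ?_, IsSelfAdjoint.of_nonneg (CFC.sqrt_nonneg w),
    CFC.sqrt_mul_sqrt_self w hw⟩
  refine (CFC.sqrt_unique ?_ ?_).symm
  · rw [← map_mul, CFC.sqrt_mul_sqrt_self w hw, hfix g]
  · exact map_nonneg (σ g) (CFC.sqrt_nonneg w)

/-- A finite group acting with equivariant re-indexing on an algebra without characters has a
fixed point algebra without characters. -/
theorem isEmpty_char_fixed [Fintype G] (hσ : IsAction σ) (hR : EqReindex σ)
    (h : IsEmpty (F →⋆ₐ[ℂ] ℂ)) : IsEmpty (fixedAlg σ →⋆ₐ[ℂ] ℂ) := by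
  classical
  refine ⟨fun χ => ?_⟩
  obtain ⟨D, hD, hDs, hDinv, hDchar⟩ := exists_invariant_noChar hσ h
  let := subCStar D hD
  obtain ⟨θ0, hθe, hθc⟩ := exists_copies_seq hR D hD hDs hDinv
  set s : Set F := ⋃ j, Set.range (θ0 j) with hsdef
  set Cs := genAlg s with hCs
  have hCc : IsClosed (Cs : Set F) := isClosed_genAlg s
  let := subCStar Cs hCc
  let τ : G → (D →⋆ₐ[ℂ] D) := fun g =>
    ((σ g).comp D.subtype).codRestrict D fun d => hDinv g _ d.2
  have hτ : ∀ j g d, θ0 j (τ g d) = σ g (θ0 j d) := fun j g d => hθe j g d (τ g d) rfl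
  have hCinv : ∀ g, ∀ x ∈ Cs, σ g x ∈ Cs := by
    intro g x hx
    refine (genAlg_le (U := Cs.comap (σ g)) (hCc.preimage (hom_continuous (σ g))) ?_) hx
    intro y hy
    obtain ⟨j, d, rfl⟩ := Set.mem_iUnion.1 hy
    exact subset_genAlg s (Set.mem_iUnion.2 ⟨j, τ g d, hτ j g d⟩)
  let θ : ℕ → (D →⋆ₐ[ℂ] Cs) := fun j => (θ0 j).codRestrict Cs fun d =>
    subset_genAlg s (Set.mem_iUnion.2 ⟨j, d, rfl⟩)
  have hcomm : ∀ i j, i ≠ j → ∀ x y, Commute (θ i x) (θ j y) := fun i j hij x y =>
    Subtype.ext (hθc i j hij x y).eq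
  -- asymptotic centrality
  have hasymp : AsympCentral θ := by
    have hgen : ∀ x ∈ (StarAlgebra.adjoin ℂ s : StarSubalgebra ℂ F), ∀ y,
        ∀ᶠ j in atTop, Commute (θ0 j y) x := by
      intro x hx
      induction hx using StarAlgebra.adjoin_induction with
      | mem x hx =>
        obtain ⟨i, d, rfl⟩ := Set.mem_iUnion.1 hx
        exact fun y => (eventually_ne_atTop i).mono fun j hj => hθc j i hj y d
      | algebraMap r => exact fun y => Eventually.of_forall fun j => Algebra.commute_algebraMap_right r _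
      | add x x' _ _ ihx ihx' => exact fun y => (ihx y).mp ((ihx' y).mono fun j h' h => h.add_right h')
      | mul x x' _ _ ihx ihx' => exact fun y => (ihx y).mp ((ihx' y).mono fun j h' h => h.mul_right h')
      | star x _ ihx =>
        exact fun y => (ihx (star y)).mono fun j h => by simpa [map_star] using h.star_star
    intro x y
    refine Metric.tendsto_nhds.2 fun ε hε => ?_
    have hx : (x : F) ∈ closure ((StarAlgebra.adjoin ℂ s : StarSubalgebra ℂ F) : Set F) := by
      rw [← StarSubalgebra.topologicalClosure_coe]; exact x.2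
    obtain ⟨x', hx', hd⟩ := Metric.mem_closure_iff.1 hx (ε / (2 * (‖y‖ + 1))) (by positivity)
    filter_upwards [hgen x' hx' y] with j hj
    rw [dist_zero_right, Real.norm_eq_abs, abs_norm]
    show ‖θ0 j y * (x : F) - (x : F) * θ0 j y‖ < ε
    have e : θ0 j y * (x : F) - (x : F) * θ0 j y =
        θ0 j y * ((x : F) - x') - ((x : F) - x') * θ0 j y := by
      rw [mul_sub, sub_mul, hj.eq]; abel
    rw [e]
    have hn : ‖θ0 j y‖ ≤ ‖y‖ := NonUnitalStarAlgHom.norm_apply_le (θ0 j) y
    rw [dist_eq_norm] at hd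
    refine (norm_sub_le _ _).trans_lt ((add_le_add (norm_mul_le _ _) (norm_mul_le _ _)).trans_lt ?_)
    rw [lt_div_iff₀ (by positivity)] at hd
    nlinarith [mul_le_mul_of_nonneg_right hn (norm_nonneg ((x : F) - x')),
      norm_nonneg ((x : F) - x'), norm_nonneg y]
  -- states extending the character
  let : PartialOrder F := CStarAlgebra.spectralOrder F
  have : StarOrderedRing F := CStarAlgebra.spectralOrderedRing F
  have hsum : ∀ x : F, (∑ g, σ g x) ∈ fixedAlg σ := fun x g' => by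
    rw [map_sum]
    refine (Finset.sum_congr rfl fun g _ => (hσ.2 g' g x).symm).trans ?_
    exact Equiv.sum_comp (Equiv.mulLeft g') fun g => σ g x
  set N : ℂ := (Fintype.card G : ℂ) with hN
  have hN0 : N ≠ 0 := Nat.cast_ne_zero.2 Fintype.card_ne_zero
  let f0 : Cs → ℂ := fun x => N⁻¹ * χ ⟨∑ g, σ g x, hsum x⟩
  have hf0 : f0 ∈ states Cs := by
    refine ⟨⟨fun a b => ?_, fun z a => ?_, fun x => ?_⟩, ?_⟩
    · have e : (⟨∑ g, σ g (a + b : Cs), hsum _⟩ : fixedAlg σ) =
          ⟨∑ g, σ g a, hsum _⟩ + ⟨∑ g, σ g b, hsum _⟩ :=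
        Subtype.ext (by simp [Finset.sum_add_distrib])
      simp only [f0, e, map_add, mul_add]
    · have e : (⟨∑ g, σ g (z • a : Cs), hsum _⟩ : fixedAlg σ) = z • ⟨∑ g, σ g a, hsum _⟩ :=
        Subtype.ext (by simp [Finset.smul_sum])
      simp only [f0, e, map_smul, smul_eq_mul]
      ring
    · obtain ⟨r, hr, hrs, hrr⟩ := exists_fixed_sqrt (σ := σ)
        (w := ∑ g, σ g ((star x * x : Cs) : F))
        (Finset.sum_nonneg fun g _ => by
          simpa [map_mul, map_star] using star_mul_self_nonneg (σ g (x : F))) (hsum _)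
      have e : (⟨∑ g, σ g ((star x * x : Cs) : F), hsum _⟩ : fixedAlg σ) =
          star (⟨r, hr⟩ : fixedAlg σ) * ⟨r, hr⟩ :=
        Subtype.ext (show _ = star r * r by rw [hrs.star_eq, hrr])
      simp only [f0, e, map_mul, map_star, hN]
      exact mul_nonneg (by positivity) (star_mul_self_nonneg _)
    · have e : (⟨∑ g, σ g ((1 : Cs) : F), hsum _⟩ : fixedAlg σ) = N • 1 :=
        Subtype.ext (by simp [hN, Nat.cast_smul_eq_nsmul])
      simp only [f0, e, map_smul, map_one, smul_eq_mul, mul_one]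
      exact inv_mul_cancel₀ hN0
  set S : Set (Cs → ℂ) :=
    {f | f ∈ states Cs ∧ ∀ (x : Cs) (hx : (x : F) ∈ fixedAlg σ), f x = χ ⟨x, hx⟩} with hS
  have hSne : f0 ∈ S := ⟨hf0, fun x hx => by
    have e : (⟨∑ g, σ g x, hsum _⟩ : fixedAlg σ) = N • ⟨x, hx⟩ :=
      Subtype.ext (by simp [hN, mem_fixedAlg.1 hx, Nat.cast_smul_eq_nsmul])
    simp only [f0, e, map_smul, smul_eq_mul]
    rw [← mul_assoc, inv_mul_cancel₀ hN0, one_mul]⟩
  have hScpt : IsCompact S := by
    have e : S = states Cs ∩ ⋂ (x : Cs) (hx : (x : F) ∈ fixedAlg σ), {f | f x = χ ⟨x, hx⟩} := by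
      ext f; simp [S]
    rw [e]
    exact isCompact_states.inter_right (isClosed_iInter fun x => isClosed_iInter fun hx =>
      isClosed_eq (continuous_apply x) continuous_const)
  have hext : IsExtreme ℝ (states Cs) S := by
    refine ⟨fun f hf => hf.1, fun g₁ hg₁ g₂ hg₂ f hf hseg => ⟨hg₁, fun x hx => ?_⟩⟩
    obtain ⟨t₁, t₂, ht₁, ht₂, -, rfl⟩ := hseg
    set X : fixedAlg σ := ⟨x, hx⟩
    set y : Cs := x - χ X • 1 with hy
    have hyf : (y : F) ∈ fixedAlg σ := by
      simpa [hy] using sub_mem hx ((fixedAlg σ).smul_mem (one_mem _) (χ X))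
    have hy2 : ((star y * y : Cs) : F) ∈ fixedAlg σ := mul_mem (star_mem hyf) hyf
    have h0 := hf.2 _ hy2
    rw [show (⟨_, hy2⟩ : fixedAlg σ) = star (X - χ X • 1) * (X - χ X • 1) from
      Subtype.ext (by simp [hy, X])] at h0
    simp only [map_mul, map_star, map_sub, map_smul, map_one, smul_eq_mul, mul_one, sub_self,
      mul_zero, Pi.add_apply, Pi.smul_apply, Complex.real_smul] at h0
    have a1 := Complex.nonneg_iff.1 (hg₁.1.nonneg y)
    have a2 := Complex.nonneg_iff.1 (hg₂.1.nonneg y)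
    have h1 := congrArg Complex.re h0
    simp only [Complex.add_re, Complex.re_ofReal_mul, Complex.zero_re] at h1
    have h2 : g₁ (star y * y) = 0 := Complex.ext (by simp only [Complex.zero_re]; nlinarith)
      (by simp [← a1.2])
    have h3 := hg₁.1.cauchy_schwarz 1 y
    rw [h2, star_one, one_mul, Complex.zero_re, Real.sqrt_zero, mul_zero,
      norm_le_zero_iff, hy, hg₁.1.map_sub, hg₁.1.smul, hg₁.2, mul_one, sub_eq_zero] at h3
    exact h3
  obtain ⟨f, hf⟩ := hScpt.extremePoints_nonempty ⟨f0, hSne⟩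
  have hfe := hext.extremePoints_subset_extremePoints hf
  have hfS : f ∈ S := hf.1
  refine hDchar.false (nonempty_char τ 1 (fun d => Subtype.ext (hσ.1 d)) hfe hasymp hcomm
    fun a _ l _ => ?_).some
  intro b
  have hb : (b : F) ∈ fixedAlg σ := fun g => by
    simp only [b, AddSubmonoidClass.coe_finset_sum, map_sum]
    refine (Finset.sum_congr rfl fun i _ => ?_).trans (Equiv.sum_comp (Equiv.mulLeft g) fun i =>
      (((l.map fun j => θ j (τ i a)).prod : Cs) : F))
    rw [SubmonoidClass.coe_list_prod, SubmonoidClass.coe_list_prod, map_list_prod, List.map_map,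
      List.map_map, List.map_map]
    refine congrArg List.prod (List.map_congr_left fun j _ => ?_)
    show σ g (θ0 j (τ i a)) = θ0 j (τ (g * i) a)
    rw [hτ, hτ, hσ.2]
  rw [hfS.2 b hb, hfS.2 (b * b) (mul_mem hb hb), ← map_mul]
  rfl

end Vale.Agent.P095
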