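import Vale.Agent.P095.Fomega
import Vale.Agent.P095.Fixed
import Vale.Agent.P101.Statement
import Vale.Agent.P101.Stage2
import Vale.Agent.P101.DimDrop

/-!
Fixed point algebras of locally finite groups acting on `F_ω(A)`: no characters, and homomorphisms
of dimension drop algebras.
-/

open Filter Topology TopologicalSpace
open Vale.Agent.P101

open scoped Matrix.Norms.L2Operator

namespace Vale.Agent.P095

noncomputable section

universe u

variable {A : Type u} [CStarAlgebra A] [Nontrivial A] {G : Type*} [Group G]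

/-- The action induced on `F_ω(A)`. -/
def inducedAct (ω : Ultrafilter ℕ) (α : G →* (A ≃⋆ₐ[ℂ] A)) (g : G) :
    CentralSeq A ω →⋆ₐ[ℂ] CentralSeq A ω :=
  centralMap ω (α g)

set_option synthInstance.maxHeartbeats 200000
set_option maxHeartbeats 1000000

variable {ω : Ultrafilter ℕ} (α : G →* (A ≃⋆ₐ[ℂ] A))

theorem inducedAct_apply_coe (g : G) (x : CentralSeq A ω) :
    (inducedAct ω α g x : Ultrapower A ω) =
      ultraMap ω (α g : A →⋆ₐ[ℂ] A) (x : Ultrapower A ω) := rfl

theorem isAction_inducedAct : IsAction (inducedAct ω α) := by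
  refine ⟨fun x => Subtype.ext ?_, fun g h x => Subtype.ext ?_⟩
  · rw [inducedAct_apply_coe]
    obtain ⟨a, ha⟩ := Ideal.Quotient.mk_surjective (x : Ultrapower A ω)
    rw [← ha, ultraMap_qmk]
    exact congrArg (qmk ω) (Subtype.ext (funext fun n => by
      show α 1 (a n) = a n
      rw [map_one, StarAlgEquiv.one_apply]))
  · simp only [inducedAct_apply_coe]
    obtain ⟨a, ha⟩ := Ideal.Quotient.mk_surjective (x : Ultrapower A ω)
    rw [← ha, ultraMap_qmk, ultraMap_qmk, ultraMap_qmk]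
    exact congrArg (qmk ω) (Subtype.ext (funext fun n => by
      show α (g * h) (a n) = α g (α h (a n))
      rw [map_mul, StarAlgEquiv.mul_apply]))

variable [SeparableSpace A] [Countable G]

/-- The induced action has equivariant re-indexing. -/
theorem eqReindex_inducedAct (hω : (ω : Filter ℕ) ≤ cofinite) :
    EqReindex (inducedAct ω α) := by
  intro D hD hsep hinv T hT
  let := subCStar D hD
  have : SeparableSpace D := hsep.separableSpace
  let β : G → (D →⋆ₐ[ℂ] D) := fun g =>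
    ((inducedAct ω α g).comp D.subtype).codRestrict D fun d => hinv g _ d.2
  obtain ⟨θ, hθ, hθT⟩ := exists_equivariant_hom hω D (fun _ => ⊤) monotone_const
    (dense_univ.mono fun x _ => Set.mem_iUnion.2 ⟨0, trivial⟩)
    (fun _ => D.subtype.comp (StarSubalgebra.subtype _)) (fun _ _ => le_rfl) α β
    (fun g => Eventually.of_forall fun n x => ⟨trivial, rfl⟩) T hT
  refine ⟨θ, fun g d e he => ?_, hθT⟩
  rw [show e = β g d from Subtype.ext he]
  exact hθ g d

/-- A diagonal argument with values in the fixed points. -/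
theorem exists_fixed_hom_of_local (hω : (ω : Filter ℕ) ≤ cofinite)
    (B : Type*) [CStarAlgebra B] [SeparableSpace B] (S : ℕ → StarSubalgebra ℂ B)
    (hmono : Monotone S) (hdense : Dense (⋃ n, (S n : Set B)))
    (ψ : ∀ n, S n →⋆ₐ[ℂ] CentralSeq A ω) (hψ : ∀ n x, ‖ψ n x‖ ≤ ‖x‖)
    (hfix : ∀ g, ∀ᶠ n in atTop, ∀ x, inducedAct ω α g (ψ n x) = ψ n x) :
    ∃ θ : B →⋆ₐ[ℂ] CentralSeq A ω, ∀ g b, centralMap ω (α g) (θ b) = θ b := by
  obtain ⟨θ, hθ, -⟩ := exists_equivariant_hom hω B S hmono hdense ψ hψ α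
    (fun _ => StarAlgHom.id ℂ B)
    (fun g => (hfix g).mono fun n hn x => ⟨x.2, (congrArg Subtype.val (hn x)).symm⟩)
    ∅ Set.countable_empty
  exact ⟨θ, fun g b => (hθ g b).symm⟩

/-- Finite groups: the fixed points receive the prime dimension drop algebras. -/
theorem exists_contractive_fixed [Finite G] (hω : (ω : Filter ℕ) ≤ cofinite)
    (h : IsEmpty (CentralSeq A ω →⋆ₐ[ℂ] ℂ)) {p q : ℕ} (hp : 2 ≤ p) (hq : 2 ≤ q)
    (hpq : Nat.Coprime p q) :
    ∃ Ψ : dimDrop p q →⋆ₐ[ℂ] CentralSeq A ω, (∀ g f, inducedAct ω α g (Ψ f) = Ψ f) ∧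
      ∀ f, ‖Ψ f‖ ≤ ‖(f : C(unitInterval, Matrix (Fin p × Fin q) (Fin p × Fin q) ℂ))‖ := by
  have := Fintype.ofFinite G
  set σ := inducedAct ω α
  have hchar := isEmpty_char_fixed (isAction_inducedAct α) (eqReindex_inducedAct α hω) h
  set E := fixedAlg σ with hE
  have hEc : IsClosed (E : Set (CentralSeq A ω)) := isClosed_fixedAlg σ
  let := subCStar E hEc
  let : PartialOrder E := CStarAlgebra.spectralOrder E
  have : StarOrderedRing E := CStarAlgebra.spectralOrderedRing E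
  have hR : Reindex E := by
    intro D hD hsep T hT
    set D' := D.map E.subtype with hD'
    have hD'c : IsClosed (D' : Set (CentralSeq A ω)) := by
      rw [hD', StarSubalgebra.coe_map]
      exact hEc.isClosedEmbedding_subtypeVal.isClosedMap _ hD
    have hD's : IsSeparable (D' : Set (CentralSeq A ω)) := by
      rw [hD', StarSubalgebra.coe_map]
      exact hsep.image continuous_subtype_val
    have hfix : ∀ g, ∀ x ∈ D', σ g x = x := by
      rintro g x ⟨y, -, rfl⟩
      exact y.2 g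
    obtain ⟨θ, hθe, hθc⟩ := eqReindex_inducedAct α hω D' hD'c hD's
      (fun g x hx => by rw [hfix g x hx]; exact hx) (E.subtype '' T) (hT.image _)
    let j : D →⋆ₐ[ℂ] D' := (E.subtype.comp D.subtype).codRestrict D' fun d => ⟨d, d.2, rfl⟩
    have hval : ∀ d, θ (j d) ∈ E := fun d g => (hθe g (j d) (j d) (hfix g _ (j d).2).symm).symm
    exact ⟨(θ.comp j).codRestrict E hval, fun d t ht =>
      Subtype.ext (hθc (j d) _ ⟨t, ht, rfl⟩).eq⟩
  obtain ⟨k, hk, -, hpk, hqk⟩ := exists_dvd_dvd_succ (by omega) (by omega) hpq 0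
  have : NeZero k := ⟨by omega⟩
  obtain ⟨P, Q, hP, hQ, hc, hu, h0, h1⟩ := exists_pair_of_noChar hR hchar hk
  obtain ⟨Ψ, hΨ⟩ := exists_hom_dimDrop_coprime (by omega) P Q hP hQ hc hu h0 h1 hpk hqk
  exact ⟨E.subtype.comp Ψ, fun g f => (Ψ f).2 g, hΨ⟩

/-- Locally finite groups: the fixed points receive the prime dimension drop algebras. -/
theorem exists_dimDrop_fixed (hω : (ω : Filter ℕ) ≤ cofinite)
    (hG : ∀ s : Finset G, Finite (Subgroup.closure (s : Set G)))
    (h : IsEmpty (CentralSeq A ω →⋆ₐ[ℂ] ℂ)) {p q : ℕ} (hp : 2 ≤ p) (hq : 2 ≤ q)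
    (hpq : Nat.Coprime p q) :
    ∃ Ψ : dimDrop p q →⋆ₐ[ℂ] CentralSeq A ω, (∀ g f, centralMap ω (α g) (Ψ f) = Ψ f) ∧
      ∀ f, ‖Ψ f‖ ≤ ‖(f : C(unitInterval, Matrix (Fin p × Fin q) (Fin p × Fin q) ℂ))‖ := by
  classical
  have : NeZero p := ⟨by omega⟩
  have : NeZero q := ⟨by omega⟩
  have : IsClosed (dimDrop p q : Set C(unitInterval, DD.MM p q)) := DD.isClosed_dimDrop
  let : CStarAlgebra (dimDrop p q) := StarSubalgebra.cstarAlgebra _
  obtain ⟨γ, hγ⟩ := exists_surjective_nat G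
  let H : ℕ → Subgroup G := fun n => Subgroup.closure ((Finset.range (n + 1)).image γ : Set G)
  have hex : ∀ n, ∃ Ψ : dimDrop p q →⋆ₐ[ℂ] CentralSeq A ω,
      (∀ g ∈ H n, ∀ f, inducedAct ω α g (Ψ f) = Ψ f) ∧
        ∀ f, ‖Ψ f‖ ≤ ‖(f : C(unitInterval, DD.MM p q))‖ := fun n => by
    have : Finite (H n) := hG _
    obtain ⟨Ψ, hfix, hΨ⟩ := exists_contractive_fixed (α.comp (H n).subtype) hω h hp hq hpq
    exact ⟨Ψ, fun g hg f => hfix ⟨g, hg⟩ f, hΨ⟩
  choose Ψ hΨf hΨn using hex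
  obtain ⟨θ, hθ⟩ := exists_fixed_hom_of_local α hω (dimDrop p q) (fun _ => ⊤) monotone_const
    (dense_univ.mono fun x _ => Set.mem_iUnion.2 ⟨0, trivial⟩)
    (fun n => (Ψ n).comp (StarSubalgebra.subtype _)) (fun n x => hΨn n x) (fun g => by
      obtain ⟨k, rfl⟩ := hγ g
      filter_upwards [eventually_ge_atTop k] with n hn x
      refine hΨf n _ (Subgroup.subset_closure ?_) _
      simp only [Finset.coe_image, Set.mem_image, Finset.coe_range, Set.mem_Iio]
      exact ⟨k, Nat.lt_succ_of_le hn, rfl⟩)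
  exact ⟨θ, hθ, fun f => NonUnitalStarAlgHom.norm_apply_le θ f⟩

end

end Vale.Agent.P095
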