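import Mathlib

/-! Finite families with equal power sums, and a covariance identity. -/

open Finset

namespace Vale.Agent.P095

/-- Equal power sums force equal sums of every function. -/
theorem sum_comp_eq_of_pow_sum_eq {P : Type*} [Fintype P] (z w : P → ℂ)
    (h : ∀ k : ℕ, ∑ p, z p ^ k = ∑ p, w p ^ k) (φ : ℂ → ℂ) : ∑ p, φ (z p) = ∑ p, φ (w p) := by
  classical
  set s : Finset ℂ := univ.image z ∪ univ.image w
  set Q := Lagrange.interpolate s id φ
  have hQ : ∀ x ∈ s, Q.eval x = φ x := fun x hx =>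
    Lagrange.eval_interpolate_at_node (v := id) φ Function.injective_id.injOn hx
  have e : ∀ v : P → ℂ, (∀ p, v p ∈ s) →
      ∑ p, φ (v p) = ∑ i ∈ range (Q.natDegree + 1), Q.coeff i * ∑ p, v p ^ i := fun v hv => by
    simp_rw [← hQ _ (hv _), Polynomial.eval_eq_sum_range, mul_sum]
    exact sum_comm
  rw [e z fun p => mem_union_left _ (mem_image_of_mem z (mem_univ p)),
    e w fun p => mem_union_right _ (mem_image_of_mem w (mem_univ p))]
  simp_rw [h]

/-- A covariance matrix vanishes when its perturbation keeps all power sums. -/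
theorem covariance_eq_zero {ι : Type*} [Fintype ι] (M : ι → ι → ℂ) (v : ι → ℝ)
    (hM : ∀ i j, star (M i j) = M j i)
    (hpos : 0 ≤ (∑ i, ∑ j, (M i j - v i * v j) * (v i * v j)).re)
    (h : ∀ k : ℕ, ∑ i, ∑ j, M i j ^ k = ∑ i, ∑ j, ((v i * v j : ℂ)) ^ k) (i j : ι) :
    M i j = v i * v j := by
  have hp := sum_comp_eq_of_pow_sum_eq (fun p : ι × ι => M p.1 p.2)
    (fun p : ι × ι => (v p.1 * v p.2 : ℂ))
    (fun k => by simp only [Fintype.sum_prod_type]; exact h k) fun z => z * star z
  simp only [Fintype.sum_prod_type] at hp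
  set K : ι → ι → ℂ := fun i j => M i j - v i * v j with hK
  have hKs : ∀ i j, star (K i j) = K j i := fun i j => by
    simp [hK, star_sub, hM, mul_comm]
  have hexp : ∀ i j, M i j * star (M i j) =
      K i j * star (K i j) + (v i * v j : ℂ) * star (v i * v j : ℂ) +
        (K i j * (v i * v j) + K j i * (v j * v i)) := fun i j => by
    rw [show M i j = K i j + v i * v j by simp [hK], ← hKs i j]
    simp only [star_add, star_mul']
    simp only [Complex.star_def, Complex.conj_ofReal]
    ring
  simp_rw [hexp, sum_add_distrib] at hp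
  rw [sum_comm (f := fun i j => K j i * (v j * v i : ℂ))] at hp
  have h0 : (∑ i, ∑ j, K i j * star (K i j)) + 2 * ∑ i, ∑ j, K i j * (v i * v j : ℂ) = 0 := by
    linear_combination hp
  have hA : (∑ i, ∑ j, K i j * star (K i j)).re = ∑ i, ∑ j, Complex.normSq (K i j) := by
    simp only [Complex.re_sum, Complex.star_def, Complex.mul_conj, Complex.ofReal_re]
  have h1 := congrArg Complex.re h0
  rw [Complex.add_re, Complex.mul_re, hA] at h1
  simp only [Complex.re_ofNat, Complex.im_ofNat, zero_mul, sub_zero, Complex.zero_re] at h1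
  have hpos' : 0 ≤ (∑ i, ∑ j, K i j * (v i * v j : ℂ)).re := hpos
  have h2 : ∑ i, ∑ j, Complex.normSq (K i j) = 0 := by
    refine le_antisymm ?_ (sum_nonneg fun i _ => sum_nonneg fun j _ => Complex.normSq_nonneg _)
    linarith
  have h3 := (sum_eq_zero_iff_of_nonneg fun i _ => sum_nonneg fun j _ =>
    Complex.normSq_nonneg (K i j)).1 h2 i (mem_univ i)
  have h4 := (sum_eq_zero_iff_of_nonneg fun j _ => Complex.normSq_nonneg (K i j)).1 h3 j
    (mem_univ j)
  exact sub_eq_zero.1 (Complex.normSq_eq_zero.1 h4)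

end Vale.Agent.P095
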