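import Vale.Agent.P095.Cluster
import Vale.Agent.P095.PowerSums

/-! The limit state of an extremal state on commuting asymptotically central copies, and the
character it produces when the averaged products are deterministic. -/

open Filter Topology ComplexOrder

namespace Vale.Agent.P095

variable {C D : Type*} [CStarAlgebra C] [CStarAlgebra D] {f : C → ℂ}

/-- Products over distinct commuting copies multiply entrywise. -/
theorem prod_map_mul (θ : ℕ → (D →⋆ₐ[ℂ] C))
    (hθ : ∀ i j, i ≠ j → ∀ x y, Commute (θ i x) (θ j y)) :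
    ∀ l : List ℕ, l.Nodup → ∀ x y : D,
      (l.map fun j => θ j (x * y)).prod = (l.map fun j => θ j x).prod * (l.map fun j => θ j y).prod
  | [], _, _, _ => by simp
  | j :: l, hl, x, y => by
    rw [List.nodup_cons] at hl
    have h : Commute (l.map fun i => θ i x).prod (θ j y) :=
      Commute.list_prod_left _ _ fun z hz => by
        obtain ⟨i, hi, rfl⟩ := List.mem_map.1 hz
        exact hθ i j (fun e => hl.1 (e ▸ hi)) x y
    simp only [List.map_cons, List.prod_cons]
    rw [prod_map_mul θ hθ l hl.2 x y, map_mul, h.symm.mul_mul_mul_comm]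

/-- A self-adjoint element stays self-adjoint in a product over commuting copies. -/
theorem star_prod_map (θ : ℕ → (D →⋆ₐ[ℂ] C))
    (hθ : ∀ i j, i ≠ j → ∀ x y, Commute (θ i x) (θ j y)) :
    ∀ l : List ℕ, l.Nodup → ∀ x : D,
      star (l.map fun j => θ j x).prod = (l.map fun j => θ j (star x)).prod
  | [], _, _ => by simp
  | j :: l, hl, x => by
    rw [List.nodup_cons] at hl
    have h : Commute (θ j (star x)) (l.map fun i => θ i (star x)).prod :=
      Commute.list_prod_right _ _ fun z hz => by
        obtain ⟨i, hi, rfl⟩ := List.mem_map.1 hz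
        exact hθ j i (fun e => hl.1 (e ▸ hi)) _ _
    simp only [List.map_cons, List.prod_cons, star_mul, star_prod_map θ hθ l hl.2 x, ← map_star]
    exact h.symm.eq

/-- Products over distinct copies approach the powers of the limit state. -/
theorem exists_lists (hf : f ∈ (states C).extremePoints ℝ) {θ : ℕ → (D →⋆ₐ[ℂ] C)}
    (hθ : AsympCentral θ) {u : Ultrafilter ℕ} (hu : (u : Filter ℕ) ≤ atTop) (μ : D → ℂ)
    (hμ : ∀ y, Tendsto (fun j => f (θ j y)) u (𝓝 (μ y))) {P : Type*} [Finite P] (y : P → D) :
    ∀ k : ℕ, ∃ l : ℕ → List ℕ, (∀ n, (l n).Nodup) ∧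
      ∀ p, Tendsto (fun n => f ((l n).map fun j => θ j (y p)).prod) atTop (𝓝 (μ (y p) ^ k))
  | 0 => ⟨fun _ => [], fun _ => List.nodup_nil, fun p => by
      simp only [List.map_nil, List.prod_nil, hf.1.2, pow_zero]; exact tendsto_const_nhds⟩
  | k + 1 => by
    obtain ⟨l, hl, hlim⟩ := exists_lists hf hθ hu μ hμ y k
    have hex : ∀ n : ℕ, ∃ j : ℕ, j ∉ l n ∧ ∀ p,
        ‖f (θ j (y p) * ((l n).map fun i => θ i (y p)).prod) -
          μ (y p) * f ((l n).map fun i => θ i (y p)).prod‖ < 1 / ((n : ℝ) + 1) := by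
      intro n
      have h1 : ∀ᶠ j in (u : Filter ℕ), j ∉ l n := by
        refine hu ?_
        rw [← Nat.cofinite_eq_atTop]
        exact (l n).finite_toSet.compl_mem_cofinite
      have h2 : ∀ p, ∀ᶠ j in (u : Filter ℕ),
          ‖f (θ j (y p) * ((l n).map fun i => θ i (y p)).prod) -
            μ (y p) * f ((l n).map fun i => θ i (y p)).prod‖ < 1 / ((n : ℝ) + 1) := fun p => by
        set x := ((l n).map fun i => θ i (y p)).prod
        have h := (tendsto_cluster hf hθ hu (y p) x).add ((hμ (y p)).mul_const (f x))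
        simp only [sub_add_cancel, zero_add] at h
        have h' := (h.sub_const (μ (y p) * f x)).norm
        rw [sub_self, norm_zero] at h'
        exact h'.eventually_lt_const (by positivity)
      exact (h1.and (eventually_all.2 h2)).exists
    choose j hj hjp using hex
    refine ⟨fun n => j n :: l n, fun n => List.nodup_cons.2 ⟨hj n, hl n⟩, fun p => ?_⟩
    have h0 : Tendsto (fun n => f (θ (j n) (y p) * ((l n).map fun i => θ i (y p)).prod) -
        μ (y p) * f ((l n).map fun i => θ i (y p)).prod) atTop (𝓝 0) :=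
      squeeze_zero_norm (fun n => (hjp n p).le) tendsto_one_div_add_atTop_nhds_zero_nat
    have := h0.add ((hlim p).const_mul (μ (y p)))
    simp only [sub_add_cancel, zero_add] at this
    simpa only [List.map_cons, List.prod_cons, pow_succ'] using this

/-- A state without variance is a character. -/
theorem nonempty_char_of_var {μ : D → ℂ} (hμ : μ ∈ states D)
    (h : ∀ a : D, IsSelfAdjoint a → μ (a * a) = μ a * μ a) : Nonempty (D →⋆ₐ[ℂ] ℂ) := by
  have hp := hμ.1
  have hsa : ∀ a : D, IsSelfAdjoint a → ∀ x, μ (x * a) = μ x * μ a := by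
    intro a ha x
    set c := a - (μ a) • (1 : D) with hc
    have hreal : star (μ a) = μ a := by rw [← hp.map_star, ha.star_eq]
    have hcs : star c = c := by rw [hc, star_sub, star_smul, star_one, ha.star_eq, hreal]
    have hvar : μ (star c * c) = 0 := by
      rw [hcs, hc]
      simp only [sub_mul, mul_sub, smul_mul_assoc, mul_smul_comm, one_mul, mul_one, hp.map_sub,
        hp.smul, hμ.2, h a ha]
      ring
    have hcz : μ (x * c) = 0 := by
      have := hp.cauchy_schwarz (star x) c
      rw [star_star, hvar, Complex.zero_re, Real.sqrt_zero, mul_zero] at this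
      exact norm_le_zero_iff.1 this
    rw [hc, mul_sub, hp.map_sub, mul_smul_comm, mul_one, hp.smul, sub_eq_zero] at hcz
    rw [hcz, mul_comm]
  have hmul : ∀ x y : D, μ (x * y) = μ x * μ y := fun x y => by
    conv_lhs => rw [← realPart_add_I_smul_imaginaryPart y]
    conv_rhs => rw [← realPart_add_I_smul_imaginaryPart y]
    rw [mul_add, mul_smul_comm, hp.add, hp.smul, hp.add, hp.smul, hsa _ (realPart y).2,
      hsa _ (imaginaryPart y).2]
    ring
  exact ⟨{ toFun := μ, map_one' := hμ.2, map_mul' := hmul, map_zero' := hp.map_zero,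
           map_add' := hp.add,
           commutes' := fun r => by
             rw [Algebra.algebraMap_eq_smul_one, hp.smul, hμ.2, mul_one]; rfl,
           map_star' := hp.map_star }⟩

/-- If all averaged products over distinct copies have no variance, there is a character. -/
theorem nonempty_char {ι : Type*} [Fintype ι] (τ : ι → (D →⋆ₐ[ℂ] D)) (i₀ : ι)
    (hi₀ : ∀ d, τ i₀ d = d) (hf : f ∈ (states C).extremePoints ℝ) {θ : ℕ → (D →⋆ₐ[ℂ] C)}
    (hθ : AsympCentral θ) (hcomm : ∀ i j, i ≠ j → ∀ x y, Commute (θ i x) (θ j y))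
    (hdet : ∀ a : D, IsSelfAdjoint a → ∀ l : List ℕ, l.Nodup →
      let b := ∑ i, (l.map fun j => θ j (τ i a)).prod
      f (b * b) = f b * f b) :
    Nonempty (D →⋆ₐ[ℂ] ℂ) := by
  have hp := hf.1.1
  set u : Ultrafilter ℕ := hyperfilter ℕ
  have hu : (u : Filter ℕ) ≤ atTop := Nat.cofinite_eq_atTop ▸ hyperfilter_le_cofinite
  have hex : ∀ y : D, ∃ z, Tendsto (fun j => f (θ j y)) u (𝓝 z) := fun y => by
    obtain ⟨z, -, hz⟩ := (isCompact_closedBall (0 : ℂ) ‖y‖).ultrafilter_le_nhds
      (u.map fun j => f (θ j y)) (by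
        rw [le_principal_iff]
        exact Eventually.of_forall (f := (u : Filter ℕ))
          (p := fun j => f (θ j y) ∈ Metric.closedBall (0 : ℂ) ‖y‖) fun j => by
            simpa using (norm_state_le hf.1 _).trans (NonUnitalStarAlgHom.norm_apply_le (θ j) y))
    exact ⟨z, hz⟩
  choose μ hμ using hex
  have hμs : μ ∈ states D := by
    refine ⟨⟨fun a b => tendsto_nhds_unique (hμ _) ?_, fun z a => tendsto_nhds_unique (hμ _) ?_,
      fun y => ge_of_tendsto (hμ _) (Eventually.of_forall fun j => ?_)⟩,
      tendsto_nhds_unique (hμ _) ?_⟩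
    · simpa only [map_add, hp.add] using (hμ a).add (hμ b)
    · simpa only [map_smul, hp.smul] using (hμ a).const_mul z
    · simpa only [map_mul, map_star] using hp.nonneg (θ j y)
    · simp only [map_one, hf.1.2]; exact tendsto_const_nhds
  refine nonempty_char_of_var hμs fun a ha => ?_
  set v : ι → ℝ := fun i => (μ (τ i a)).re
  have hv : ∀ i, μ (τ i a) = v i := fun i => (hμs.1.real_of_isSelfAdjoint (ha.map _)).symm
  set M : ι → ι → ℂ := fun i i' => μ (τ i a * τ i' a) with hM
  have hherm : ∀ i i', star (M i i') = M i' i := fun i i' => by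
    rw [hM, ← hμs.1.map_star, star_mul, (ha.map (τ i)).star_eq, (ha.map (τ i')).star_eq]
  have hpow : ∀ k : ℕ, ∑ i, ∑ i', M i i' ^ k = ∑ i, ∑ i', ((v i * v i' : ℂ)) ^ k := by
    intro k
    obtain ⟨l, hl, hlim⟩ := exists_lists hf hθ hu μ hμ
      (Sum.elim (fun i => τ i a) fun p : ι × ι => τ p.1 a * τ p.2 a) k
    have h1 : Tendsto (fun n => ∑ i, ∑ i', f ((l n).map fun j => θ j (τ i a * τ i' a)).prod) atTop
        (𝓝 (∑ i, ∑ i', M i i' ^ k)) :=
      tendsto_finsetSum _ fun i _ => tendsto_finsetSum _ fun i' _ => hlim (Sum.inr (i, i'))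
    have h2 : Tendsto (fun n => ∑ i, f ((l n).map fun j => θ j (τ i a)).prod) atTop
        (𝓝 (∑ i, (v i : ℂ) ^ k)) :=
      tendsto_finsetSum _ fun i _ => by rw [← hv]; exact hlim (Sum.inl i)
    have h3 := h2.mul h2
    have e : ∀ n, ∑ i, ∑ i', f ((l n).map fun j => θ j (τ i a * τ i' a)).prod =
        (∑ i, f ((l n).map fun j => θ j (τ i a)).prod) *
          ∑ i, f ((l n).map fun j => θ j (τ i a)).prod := fun n => by
      have := hdet a ha (l n) (hl n)
      simp only [Finset.sum_mul_sum, ← prod_map_mul θ hcomm _ (hl n), hp.map_sum] at this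
      rw [Finset.sum_mul_sum]
      exact this
    simp only [e] at h1
    rw [tendsto_nhds_unique h1 h3, Finset.sum_mul_sum]
    simp [mul_pow]
  have hpos : 0 ≤ (∑ i, ∑ i', (M i i' - v i * v i') * (v i * v i' : ℂ)).re := by
    set c := ∑ i, (v i : ℂ) • τ i a with hc
    set d := c - μ c • (1 : D)
    have hcs : star c = c := by
      simp [hc, star_sum, star_smul, (ha.map (τ _)).star_eq]
    have hμc : μ c = ∑ i, (v i : ℂ) * v i := by simp only [hc, hμs.1.map_sum, hμs.1.smul, hv]
    have hreal : star (μ c) = μ c := by rw [← hμs.1.map_star, hcs]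
    have key : ∑ i, ∑ i', (M i i' - v i * v i') * (v i * v i' : ℂ) = μ (star d * d) := by
      simp only [d, star_sub, star_smul, star_one, hcs, hreal, sub_mul, mul_sub, smul_mul_assoc,
        mul_smul_comm, one_mul, mul_one, hμs.1.map_sub, hμs.1.smul, hμs.2]
      rw [hμc]
      simp only [hc, Finset.sum_mul_sum, smul_mul_assoc, mul_smul_comm, hμs.1.map_sum,
        hμs.1.smul, Finset.sum_sub_distrib, M]
      simp only [Finset.mul_sum, Finset.sum_mul, ← Finset.sum_sub_distrib]
      simp only [sub_self, sub_zero]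
      exact Finset.sum_congr rfl fun i _ => Finset.sum_congr rfl fun i' _ => by ring
    rw [key]
    exact (Complex.nonneg_iff.1 (hμs.1.nonneg d)).1
  have := covariance_eq_zero M v hherm hpos hpow i₀ i₀
  simpa [hM, hi₀, ← hv] using this

end Vale.Agent.P095
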