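import Vale.Agent.P101.Statement

/-! The notions in which the theorem on locally finite groups is stated. -/

open Filter Topology
open Vale.Agent.P101

namespace Vale.Agent.P095

variable {A : Type*} [CStarAlgebra A] [Nontrivial A] (ω : Ultrafilter ℕ) {G : Type*} [Group G]
  (α : G →* (A ≃⋆ₐ[ℂ] A))

/-- Every finitely generated subgroup is finite. -/
def IsLocallyFinite (G : Type*) [Group G] : Prop :=
  ∀ s : Finset G, Finite (Subgroup.closure (s : Set G))

/-- An element of `F_ω(A)` is fixed by the action applied entrywise: for every representing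
sequence, `α g (a n) - a n` tends to zero in norm along `ω`. -/
def IsFixedSeq (x : CentralSeq A ω) : Prop :=
  ∀ g : G, ∀ a : BddSeq A, qmk ω a = Subtype.val x →
    Tendsto (fun n => ‖α g (a n) - a n‖) ω (𝓝 0)

/-- `dimDrop p q` maps unitally into the fixed points of `F_ω(A)`. -/
def DimDropMapsFixed (p q : ℕ) : Prop :=
  ∃ θ : DimDropAlg p q →⋆ₐ[ℂ] CentralSeq A ω, ∀ f, IsFixedSeq ω α (θ f)

/-- `B` maps unitally into the fixed points of `F_ω(A)`. -/
def MapsUnitallyFixed (B : Type*) [CStarAlgebra B] : Prop :=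
  ∃ θ : B →⋆ₐ[ℂ] CentralSeq A ω, ∀ b, IsFixedSeq ω α (θ b)

end Vale.Agent.P095
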