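import Mathlib

/-! States of unital C*-algebras, as functions. -/

open ComplexOrder InnerProductSpace

namespace Vale.Agent.P095

variable {C : Type*} [CStarAlgebra C]

/-- A positive linear functional, as a function. -/
structure IsPos (f : C → ℂ) : Prop where
  add : ∀ a b, f (a + b) = f a + f b
  smul : ∀ (z : ℂ) a, f (z • a) = z * f a
  nonneg : ∀ x, 0 ≤ f (star x * x)

namespace IsPos

variable {f : C → ℂ} (hf : IsPos f)
include hf

/-- The linear map. -/
def lin : C →ₗ[ℂ] ℂ where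
  toFun := f
  map_add' := hf.add
  map_smul' := hf.smul

lemma map_zero : f 0 = 0 := hf.lin.map_zero

lemma map_neg (a : C) : f (-a) = -f a := hf.lin.map_neg a

lemma map_sub (a b : C) : f (a - b) = f a - f b := hf.lin.map_sub a b

lemma map_sum {ι : Type*} (s : Finset ι) (g : ι → C) : f (∑ i ∈ s, g i) = ∑ i ∈ s, f (g i) :=
  _root_.map_sum hf.lin g s

lemma nonneg_of_nonneg [PartialOrder C] [StarOrderedRing C] {a : C} (ha : 0 ≤ a) : 0 ≤ f a := by
  obtain ⟨s, rfl⟩ := CStarAlgebra.nonneg_iff_eq_star_mul_self.1 ha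
  exact hf.nonneg s

lemma map_star (a : C) : f (star a) = star (f a) := by
  let : PartialOrder C := CStarAlgebra.spectralOrder C
  have : StarOrderedRing C := CStarAlgebra.spectralOrderedRing C
  exact StarHomClass.map_star (PositiveLinearMap.mk₀ hf.lin fun _ => hf.nonneg_of_nonneg) a

lemma real_of_isSelfAdjoint {a : C} (ha : IsSelfAdjoint a) : ((f a).re : ℂ) = f a := by
  have h : star (f a) = f a := by rw [← hf.map_star, ha.star_eq]
  exact Complex.conj_eq_iff_re.1 h

/-- Cauchy-Schwarz. -/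
lemma cauchy_schwarz (a b : C) :
    ‖f (star a * b)‖ ≤ √(f (star a * a)).re * √(f (star b * b)).re := by
  let : PartialOrder C := CStarAlgebra.spectralOrder C
  have : StarOrderedRing C := CStarAlgebra.spectralOrderedRing C
  exact norm_inner_le_norm (𝕜 := ℂ)
    ((PositiveLinearMap.mk₀ hf.lin fun _ => hf.nonneg_of_nonneg).toPreGNS a)
    ((PositiveLinearMap.mk₀ hf.lin fun _ => hf.nonneg_of_nonneg).toPreGNS b)

lemma apply_one_nonneg : 0 ≤ f 1 := by simpa using hf.nonneg 1

lemma re_le (b x : C) : (f (star x * (star b * b) * x)).re ≤ ‖b‖ ^ 2 * (f (star x * x)).re := by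
  let : PartialOrder C := CStarAlgebra.spectralOrder C
  have : StarOrderedRing C := CStarAlgebra.spectralOrderedRing C
  have h1 : star b * b ≤ algebraMap ℝ C (‖b‖ ^ 2) := by
    rw [sq, ← CStarRing.norm_star_mul_self]
    exact (IsSelfAdjoint.star_mul_self b).le_algebraMap_norm_self
  have h2 := star_left_conjugate_le_conjugate h1 x
  rw [← sub_nonneg] at h2
  have h3 := (Complex.nonneg_iff.1 (hf.nonneg_of_nonneg h2)).1
  have h4 : star x * algebraMap ℝ C (‖b‖ ^ 2) * x = ((‖b‖ ^ 2 : ℝ) : ℂ) • (star x * x) := by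
    rw [Algebra.algebraMap_eq_smul_one, mul_smul_comm, mul_one, smul_mul_assoc, Complex.coe_smul]
  rw [hf.map_sub, h4, hf.smul, Complex.sub_re, Complex.re_ofReal_mul] at h3
  linarith

lemma norm_apply_le (a : C) : ‖f a‖ ≤ (f 1).re * ‖a‖ := by
  have h := hf.cauchy_schwarz 1 a
  simp only [star_one, one_mul] at h
  refine h.trans ?_
  have h1 : 0 ≤ (f 1).re := (Complex.nonneg_iff.1 hf.apply_one_nonneg).1
  have h2 := hf.re_le a 1
  simp only [star_one, one_mul, mul_one] at h2
  calc √(f 1).re * √(f (star a * a)).re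
      ≤ √(f 1).re * √(‖a‖ ^ 2 * (f 1).re) := by gcongr
    _ = (f 1).re * ‖a‖ := by
        rw [Real.sqrt_mul (sq_nonneg _), Real.sqrt_sq (norm_nonneg _), mul_comm ‖a‖, ← mul_assoc,
          Real.mul_self_sqrt h1]

lemma eq_zero_of_apply_one (h : f 1 = 0) (a : C) : f a = 0 :=
  norm_le_zero_iff.1 ((hf.norm_apply_le a).trans_eq (by simp [h]))

end IsPos

variable (C) in
/-- The states. -/
def states : Set (C → ℂ) := {f | IsPos f ∧ f 1 = 1}

lemma norm_state_le {f : C → ℂ} (hf : f ∈ states C) (a : C) : ‖f a‖ ≤ ‖a‖ := by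
  simpa [hf.2] using hf.1.norm_apply_le a

lemma isCompact_states : IsCompact (states C) := by
  refine (isCompact_univ_pi fun a : C => isCompact_closedBall (0 : ℂ) ‖a‖).of_isClosed_subset
    ?_ fun f hf a _ => by simpa using norm_state_le hf a
  have e : states C = {f | ∀ a b, f (a + b) = f a + f b} ∩ ({f | ∀ (z : ℂ) a, f (z • a) = z * f a}
      ∩ ({f | ∀ x, 0 ≤ f (star x * x)} ∩ {f | f 1 = 1})) := by
    ext f
    exact ⟨fun ⟨⟨h1, h2, h3⟩, h4⟩ => ⟨h1, h2, h3, h4⟩, fun ⟨h1, h2, h3, h4⟩ => ⟨⟨h1, h2, h3⟩, h4⟩⟩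
  rw [e]
  simp only [Set.ofPred_forall]
  exact IsClosed.inter (isClosed_iInter fun a => isClosed_iInter fun b =>
      isClosed_eq (by fun_prop) (by fun_prop))
    (IsClosed.inter (isClosed_iInter fun z => isClosed_iInter fun a =>
      isClosed_eq (by fun_prop) (by fun_prop))
    (IsClosed.inter (isClosed_iInter fun x => isClosed_le continuous_const (by fun_prop))
      (isClosed_eq (by fun_prop) continuous_const)))

/-- An extremal state dominates only its multiples. -/
theorem eq_smul_of_le {f : C → ℂ} (hf : f ∈ (states C).extremePoints ℝ) {L : C → ℂ} (hL : IsPos L)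
    {K : ℝ} (hle : ∀ x, (L (star x * x)).re ≤ K * (f (star x * x)).re) (x : C) :
    L x = L 1 * f x := by
  rcases eq_or_ne (L 1) 0 with h0 | h0
  · rw [hL.eq_zero_of_apply_one h0, h0, zero_mul]
  set c : ℝ := (L 1).re with hc
  have hLc : (c : ℂ) = L 1 := hL.real_of_isSelfAdjoint (IsSelfAdjoint.one C)
  have hc0 : 0 < c := lt_of_le_of_ne (Complex.nonneg_iff.1 hL.apply_one_nonneg).1 fun e => h0 (by
    rw [← hLc, ← e, Complex.ofReal_zero])
  have hcK : c ≤ K := by
    have := hle 1
    simpa [hf.1.2] using this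
  set d : ℝ := K + 1 - c with hd
  have hd0 : 0 < d := by linarith
  have hg : IsPos fun y => ((K + 1 : ℝ) : ℂ) * f y - L y := by
    refine ⟨fun a b => by simp only [hL.add, hf.1.1.add]; ring,
      fun z a => by simp only [hL.smul, hf.1.1.smul]; ring, fun y => ?_⟩
    have h1 := hle y
    have h2 := Complex.nonneg_iff.1 (hf.1.1.nonneg y)
    have h3 := Complex.nonneg_iff.1 (hL.nonneg y)
    refine Complex.nonneg_iff.2 ⟨?_, ?_⟩
    · simp only [Complex.sub_re, Complex.re_ofReal_mul]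
      nlinarith [h2.1]
    · simp [← h2.2, ← h3.2]
  have hscale : ∀ (g : C → ℂ) (r : ℝ), IsPos g → 0 < r → g 1 = r →
      (fun y => ((r⁻¹ : ℝ) : ℂ) * g y) ∈ states C := fun g r hg hr h1 =>
    ⟨⟨fun a b => by simp only [hg.add]; ring, fun z a => by simp only [hg.smul]; ring,
      fun y => mul_nonneg (by exact_mod_cast (inv_pos.2 hr).le) (hg.nonneg y)⟩, by
      simp [h1, hr.ne']⟩
  have hseg : f ∈ openSegment ℝ (fun y => ((c⁻¹ : ℝ) : ℂ) * L y)
      (fun y => ((d⁻¹ : ℝ) : ℂ) * (((K + 1 : ℝ) : ℂ) * f y - L y)) := by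
    refine ⟨c / (K + 1), d / (K + 1), div_pos hc0 (by linarith), div_pos hd0 (by linarith), ?_, ?_⟩
    · rw [← add_div, hd, add_sub_cancel, div_self (by linarith : K + 1 ≠ 0)]
    · funext y
      have a1 : (c : ℂ) ≠ 0 := by exact_mod_cast hc0.ne'
      have a2 : (d : ℂ) ≠ 0 := by exact_mod_cast hd0.ne'
      have a3 : ((K + 1 : ℝ) : ℂ) ≠ 0 := by
        exact_mod_cast (by linarith : K + 1 ≠ 0)
      simp only [Pi.add_apply, Pi.smul_apply, Complex.real_smul, Complex.ofReal_div,
        Complex.ofReal_inv]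
      field_simp
      ring
  have he := hf.2 (hscale L c hL hc0 hLc.symm)
    (hscale _ d hg hd0 (by rw [hf.1.2, ← hLc, mul_one, ← Complex.ofReal_sub])) hseg
  have hx := congrFun he x
  rw [← hLc, ← hx]
  have a1 : (c : ℂ) ≠ 0 := by exact_mod_cast hc0.ne'
  simp [a1]

end Vale.Agent.P095
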